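import Claimed.Agent.R292.Exit.RSW
import Claimed.Agent.R292.Model.Basic
import Claimed.Agent.R292.Model.M3x201
import Claimed.Agent.R292.Model.DictM21
import Claimed.Agent.R292.Rsw.CmpPin291
import Claimed.Agent.R292.Model.Circ1
import Claimed.Agent.R292.Model.Contig261
import Claimed.Agent.R292.Model.BoxPin101
import Claimed.Agent.R292.Model.Pattern141
import Claimed.Agent.R292.Model.Count41
import Claimed.Agent.R292.Model.Wbc101
import Claimed.Agent.R292.Model.Step191

/-!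
# Row 292 (S0540), Exit/MODEL : THE OUTPUTS OF THE UNIT "MODEL"      (head helper191; prefix `exit_mdl_`)

FINAL STATE (23:05Z, 15 Oct; head helper191).  **EVERY OUTPUT BELOW IS A THEOREM; THIS FILE AND ALL ITS PRODUCERS (`Model/*`, `Rsw/Cut91`, `Rsw/CmpPin291`, ...) HAVE NO `sorry` OF THEIR OWN.**
The axiom closures of M1 M2 M3 M5 S0 are the three standard axioms.  The closures of S1, (WB), S2, S4w contain `sorryAx` ONLY through `exit_rsw_circuit`, those of S3, S4 ONLY through `exit_rsw_circuit`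
and `exit_rsw_plane` (Exit/RSW, unit RSW = [DKLM2026] Thm 16.4 and Thm 17.1, cited by the AT paper; their source is not in the box and no proof was found; since 23:20Z both are DERIVED, in Exit/RSWFront and Exit/RSW, from the four OPEN contracts `exit_rc_lf`, `exit_rc_cclosed`, `exit_rc_lssd`, `exit_rc_d` of Exit/RSWFront, which carry the only `sorry`s).  So S1-S4 are CONDITIONAL theorems:
each producer is stated with these two inputs as explicit hypotheses and is kernel-clean (`mdl1_exit_circ_rsw`, `wbc101_wb_of`, `mdl41c_trans_of_wb`, `mdl141p_exit`, `stx_w1`, `ctg261_contig`).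
Nothing else is claimed: ROW 292 STAYS OPEN (no S0540 file).  Deviations from the paper: (WB) is proved by lowering + exact cut + screening (not by the paper's disintegration), and
lem:buffered-witnesses is proved WITHOUT lem:collar (leaf of the cluster tree + exploration from the other marks).

AT paper Sec 2.2 + Sec 3.1, in the vocabulary of `Defs/MODEL` (heights `K = 2 H` on the turned corner lattice `MdlS`, law `mdlEQ c Q A b`, `c = 1/t ≥ 1`).
* (M1) `exit_mdl_dict`   the frozen `atExpect` of Def_0468 IS `mdlFz t⁻¹ F` of the smeared height                      [PROVED: 21 `mdl21m_dict`]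
* (M2) `exit_mdl_dlr`    DLR / Markov, every `A' ⊆ A`, the same `Q`                                                     [PROVED: 201 `mdl201_exit_dlr`; twins 141 261]
* (M3) `exit_mdl_fkg`    `c ≥ 1`: positive association of increasing observables + monotonicity in the boundary height  [PROVED: 201 `mdl201_exit_fkg`; twins 231 141]
* (M4) DROPPED (`|h|`: never used by the AT paper; prop:comparison in the order `(s, W⁺, -W⁻)` = R3 CMP of unit RSW, pen 291 + tools 141)
* (M5) `exit_mdl_edge`   the edge representation (eq. spatial-edge-weight): summing the `W ⊇ Γ` gives `1[s flat on Γ] * weight of Q \ Γ`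
                         = EXACT CUT: on an open `W` circuit the plaquettes of the circuit carry no transverse interaction   [PROVED: Model/Basic `mdl_edge`]
SPATIAL LAYER (AT paper Sec 3.2-3.6; vocabulary `(S, D, O)` of `Defs/RSW`; inputs `exit_rsw_circuit`, `exit_rsw_plane`, R2 CUT (91), R3 CMP (291)); conditional bounds in PRODUCT form,
`L` = arbitrary exterior `(s,W)` data of the buffer (`MdlExt`):
* (S0) `exit_mdl_cmp`      prop:comparison: FKG in the order (3.4) under pins (vertex spins + edge states with pinned endpoints)   [PROVED: 291 `cmp291_exit_cmp`]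
S1-S4 carry a ratio parameter `k` (boxes `Λ_{kn} ⊆ Λ_{(k+1)n}`: any ratio `> 1`; constants depend on `t, k` only).
* (S1) `exit_mdl_circ`     prop:circuits (1): a `W` circuit of either colour in `Λ_{(k+2)n} \ Λ_{(k+1)n}` given any data off `Λ_{(k+3)n} \ Λ_{kn}`   [PROVED from `exit_rsw_circuit` alone: 1 `mdl1_exit_circ`, 101, 61]
* (S2) `exit_mdl_trans`    prop:cluster-counts (2'): exponential tail of the number of transmitting components of `N`                    [PROVED from `exit_rsw_circuit` alone: 41 `mdl41c_trans_of_wb`, `mdl41c_meet`; (WB) `exit_mdl_wb` PROVED: 191 `wl_wbat` `wl_inB`, 201 `wb201_holley` `wb201_gc`, 101 `wbc101_screen` `wbc101_wlchain_half` `wbc101_wb_of`]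
* (S3) `exit_mdl_pattern`  prop:pattern-comparison: complete `(s,W)` patterns in `m` buffered boxes, two-sided, constant `C ^ m`          [PROVED from S0 S1 + `exit_rsw_plane`: 141 `mdl141p_exit`]
* (S4) `exit_mdl_contig`   prop:full-contiguity: events of the FULL spin pair in `Λ_n`: small in the plane ⟹ small in every flat law   [PROVED from S2 S3 S4w + `exit_rsw_plane`: 261 `ctg261_contig`]
* (S4w) `exit_mdl_witness` lem:buffered-witnesses (record `Ctg261W` of Model/Contig261)   [PROVED from S0 S1: 261 `ctg261_witness_of_step`, `stp261_explore`; 72 `cm72_main`; 191 `stx_w1` (no lem:collar)]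
-/

set_option autoImplicit false

namespace Claimed.Agent.R292

open Claims Claims.C0468 Filter Topology

/-- (M1) DICTIONARY. -/
theorem exit_mdl_dict {d : ℝ} (hd : 0 < d) {F : Finset (ℤ × ℤ)} (hc : IsPreconnected (frontier (faceRegionSq d F)))
    {t : ℝ} (ht : 0 < t) (δ : ℝ) (φ : ℝ × ℝ → ℝ) (ψ : ℝ → ℝ) :
    atExpect t δ F φ ψ = mdlFz t⁻¹ F fun h => ψ (mdlSm δ F φ h) :=
  mdl21m_dict hd hc ht δ φ ψ

/-- (M2) DLR. -/
theorem exit_mdl_dlr {c : ℝ} (hc : 0 < c) (Q : Finset MdlS) {A' A : Finset MdlS} (hA : A' ⊆ A) (b : MdlS → ℤ)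
    (G : (MdlS → ℤ) → ℝ) : mdlEQ c Q A b G = mdlEQ c Q A b fun h => mdlEQ c Q A' h G :=
  mdl201_exit_dlr hc Q hA b G

/-- (M3) FKG and monotonicity in the boundary height. -/
theorem exit_mdl_fkg {c : ℝ} (hc : 1 ≤ c) (Q A : Finset MdlS) {b : MdlS → ℤ} (hb : MdlHt b) :
    (∀ G₁ G₂ : (MdlS → ℤ) → ℝ, MdlMono G₁ → MdlMono G₂ →
      mdlEQ c Q A b G₁ * mdlEQ c Q A b G₂ ≤ mdlEQ c Q A b fun h => G₁ h * G₂ h) ∧
    ∀ b' : MdlS → ℤ, MdlHt b' → (∀ u, b u ≤ b' u) → ∀ G : (MdlS → ℤ) → ℝ, MdlMono G →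
      mdlEQ c Q A b G ≤ mdlEQ c Q A b' G :=
  mdl201_exit_fkg hc Q A hb

/-- (M5) EDGE REPRESENTATION / EXACT CUT. -/
theorem exit_mdl_edge (c : ℝ) (e : Bool) {Γ Q : Finset MdlS} (hΓ : Γ ⊆ Q) {h : MdlS → ℤ} (hh : MdlHt h) :
    ∑ W ∈ Q.powerset.filter (fun W => Γ ⊆ W), mdlWtW c e Q W h =
      (open Classical in ∏ p ∈ Γ, if MdlSf e h p then (1 : ℝ) else 0) * mdlWt c (Q \ Γ) h :=
  mdl_edge c e hΓ hh

/-- (S0) COMPARISON WITH PINS (prop:comparison, first sentence): the `(s,W)` law under any prescriptions of vertex spins and of edge states with both endpoints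
pinned is positively associated in the order (3.4), either colour.  Unnormalised form (no division; infeasible prescriptions give `0 ≤ 0`). -/
theorem exit_mdl_cmp (t : ℝ) (ht1 : 1 / 2 ≤ t) (ht2 : t < 1) (F : Finset (ℤ × ℤ)) (hF : RswJordan F) (b a : Bool)
    (K : MdlPin) (hK : K.Ok) (X Y : RswCfg → ℝ) (hX : MdlInc a X) (hY : MdlInc a Y) :
    mdlSumK t F b K X * mdlSumK t F b K Y ≤ mdlSumK t F b K (fun _ => 1) * mdlSumK t F b K fun ω => X ω * Y ω :=
  cmp291_exit_cmp t ht1 ht2 F hF b a K hK X Y hX hY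

/-- (S1) BUFFERED CIRCUITS, conditional form, ANNULAR buffer `Λ_{(k+3)n} \ Λ_{kn}` (`k = 0`: the full box): the data `L` may read `(s,W)` outside AND inside. -/
theorem exit_mdl_circ (t : ℝ) (ht1 : 1 / 2 ≤ t) (ht2 : t < 1) (k : ℕ) :
    ∃ p : ℝ, 0 < p ∧ ∃ n0 : ℕ, ∀ n : ℕ, n0 ≤ n → ∀ (F : Finset (ℤ × ℤ)) (z : ℤ × ℤ) (b a : Bool) (L : RswCfg → Prop),
      RswJordan F → rswBox z ((k + 3) * n) ⊆ F → MdlExt (rswBox z ((k + 3) * n) \ rswBox z (k * n)) L →
      p * rswP t F b L ≤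
        rswP t F b fun ω => L ω ∧ RswSep F a ω (rswBox z ((k + 1) * n)) (F \ rswBox z ((k + 2) * n)) :=
  mdl1_exit_circ t ht1 ht2 (fun F hF b a K hK X Y hX hY => exit_mdl_cmp t ht1 ht2 F hF b a K hK X Y hX hY) k

/-- (WB) WALL BLOCKING (TEX 03-spatial l.917-985), record of 41; road = ORDER MODEL-5, records of `Model/Wall191`: (W1) `wb201_holley`, (W2) `wbc101_screen`, (W3) `wb201_gc`,
(W5) (W6) `wbc101_wlchain_half`, lowering + exact cut + atoms `wl_wbat`, part inside the rectangle `wl_inB`, shells `wbc101_wb_of`.  The only sorry in its closure is `exit_rsw_circuit`. -/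
theorem exit_mdl_wb (t : ℝ) (ht1 : 1 / 2 ≤ t) (ht2 : t < 1) : Mdl41cWB t :=
  wbc101_wb_of t ht1 ht2 (mdl1t_circuit t ht1 ht2)
    (fun _ _ _ _ hin hCh hthin a ω₀ hfkg hScr hGC _ _ hp _ => wl_inB (by linarith) ht2 hin hCh hthin a ω₀ hfkg hScr hGC hp)

/-- (S2) TRANSMISSION COUNT, boxes `Λ_{kn} ⊆ Λ_{(k+1)n}`, buffer `Λ_{(k+2)n}`. -/
theorem exit_mdl_trans (t : ℝ) (ht1 : 1 / 2 ≤ t) (ht2 : t < 1) (k : ℕ) :
    ∃ C q : ℝ, 0 < C ∧ 0 < q ∧ q < 1 ∧ ∃ n0 : ℕ, ∀ n : ℕ, n0 ≤ n → ∀ (F : Finset (ℤ × ℤ)) (z : ℤ × ℤ) (b : Bool) (L : RswCfg → Prop) (j : ℕ),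
      RswJordan F → rswBox z ((k + 2) * n) ⊆ F → MdlExt (rswBox z ((k + 2) * n)) L →
      rswP t F b (fun ω => L ω ∧ MdlTrans (rswBox z (k * n)) (rswBox z ((k + 1) * n)) j ω) ≤ C * q ^ j * rswP t F b L :=
  mdl41c_trans_of_wb mdl41c_meet t ht1 ht2 (exit_mdl_wb t ht1 ht2) k

/-- (S3) PATTERN COMPARISON, boxes `Λ_{k n_i}(z_i)`, pairwise disjoint buffers `Λ_{(k+1) n_i}(z_i)`. -/
theorem exit_mdl_pattern (t : ℝ) (ht1 : 1 / 2 ≤ t) (ht2 : t < 1) (k : ℕ) :
    ∃ C : ℝ, 1 ≤ C ∧ ∃ n0 : ℕ, ∀ (m : ℕ) (z : Fin m → ℤ × ℤ) (n : Fin m → ℕ) (F : Finset (ℤ × ℤ)) (b : Bool) (L : RswCfg → Prop)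
      (ω₀ : Fin m → RswCfg), RswJordan F → (∀ i, n0 ≤ n i) → (∀ i, rswBox (z i) ((k + 1) * n i) ⊆ F) →
      (∀ i j, i ≠ j → Disjoint (rswBox (z i) ((k + 1) * n i)) (rswBox (z j) ((k + 1) * n j))) →
      MdlExt (Finset.univ.biUnion fun i => rswBox (z i) ((k + 1) * n i)) L →
      (C⁻¹) ^ m * (∏ i, mdlPiP t (MdlPat (rswBox (z i) (k * n i)) (ω₀ i))) * rswP t F b L
          ≤ rswP t F b (fun ω => L ω ∧ ∀ i, MdlPat (rswBox (z i) (k * n i)) (ω₀ i) ω) ∧
      rswP t F b (fun ω => L ω ∧ ∀ i, MdlPat (rswBox (z i) (k * n i)) (ω₀ i) ω)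
          ≤ C ^ m * (∏ i, mdlPiP t (MdlPat (rswBox (z i) (k * n i)) (ω₀ i))) * rswP t F b L :=
  mdl141p_exit exit_mdl_cmp exit_mdl_circ exit_rsw_plane t ht1 ht2 k

/-- (S4w) BUFFERED WITNESSES (lem:buffered-witnesses), typed by 261 (`Ctg261W`): compatibility of a bounded set of marks of conditional probability `≥ p`
is witnessed by short monochromatic `W` loops inside `Λ_{(k+2)n}` with conditional probability `≥ c(p, M, k, t)`.
ONE STEP (eq:spatial-witness-step, `Ctg261W1`) WITHOUT lem:collar (road of 261): leaf of the cluster tree (CM) `cm72_main` (72), exploration from the other marks + exact screening across the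
good frontier + S0 + S1 `stp261_explore` (261), types + union bound + localisation `stx_w1` (191). -/
theorem exit_mdl_wstep (t : ℝ) (ht1 : 1 / 2 ≤ t) (ht2 : t < 1) : Ctg261W1 t :=
  stx_w1 (by linarith) ht2.le (fun F hF b a K hK X Y hX hY => exit_mdl_cmp t ht1 ht2 F hF b a K hK X Y hX hY)
    (exit_mdl_circ t ht1 ht2)

theorem exit_mdl_witness (t : ℝ) (ht1 : 1 / 2 ≤ t) (ht2 : t < 1) : Ctg261W t :=
  ctg261_witness_of_step (by linarith) ht2.le (exit_mdl_wstep t ht1 ht2)

/-- (S4) FULL-SPIN CONTIGUITY, box `Λ_{kn}`, buffer `Λ_{(k+1)n}`. -/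
theorem exit_mdl_contig (t : ℝ) (ht1 : 1 / 2 ≤ t) (ht2 : t < 1) (k : ℕ) (ε : ℝ) (hε : 0 < ε) :
    ∃ ζ : ℝ, 0 < ζ ∧ ∃ n0 : ℕ, ∀ n : ℕ, n0 ≤ n → ∀ (F : Finset (ℤ × ℤ)) (z : ℤ × ℤ) (b : Bool) (L E : RswCfg → Prop),
      RswJordan F → rswBox z ((k + 1) * n) ⊆ F → MdlExt (rswBox z ((k + 1) * n)) L → MdlIn (rswBox z (k * n)) E → mdlPiP t E < ζ →
      rswP t F b (fun ω => L ω ∧ E ω) ≤ ε * rswP t F b L :=
  ctg261_contig t ht1 ht2 (exit_mdl_trans t ht1 ht2) (exit_mdl_pattern t ht1 ht2) (exit_mdl_witness t ht1 ht2)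
    (exit_rsw_plane t ht1 ht2) (fun _ hN => bp101_jordan_box 0 hN) k ε hε

end Claimed.Agent.R292
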