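import Claimed.Agent.R292.Jordan.Arch281
import Claimed.Agent.R292.Rsw.ArchWire107

/-!
# Row 292 (S0540), Exit/Arch : THE BOUNDARY ARCH `GaussArch` IN EVERY JORDAN DOMAIN      (unit JORDAN, head helper281; prefix `jd_`)

TREE      `jd_arch : GaussArch t D δ F` (= `gauss_arch` of Exit/GaussArch, word for word; PROVED here)  ⇐  `exit_rsw_arm` (v4, 21:40Z: FILLED by `rsa107_exit_plain` of 107, Rsw/ArchWire107; what is open below it: `mdl1_circ_cond`, `exit_mdl_cmp`; TEX[prop:circuits] (2), eq:spatial-attached-arm).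
v3 (19:25Z): the contract is now typed with the PLAIN colour separation `RswSep F true` of Defs/RSW (no seals, no wall cluster): it is WEAKER than the version with `RswSepW`
(`jd_arm_of_sepW`, proved), and it suffices because both sets touch the wall (adapter `at92f_box_P_le` of 292, Gauss/Dict292).      Whoever proves the `RswSepW` form (197's `ja7_arm_scale`) plugs it through `jd_arm_of_sepW`.
The reduction (Jordan/Arch281, 0 sorry): `RswJordan (F n)` by scaling; a face off `F n` in the box of radius `~ r / δ n` about a boundary point (J4); Euclidean discs against lattice boxes.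
The flip, the depth moment and the assembly of `gauss_bd` are held by GAUSS (Defs/GaussArch: `GaussFlip`, `GaussDepth`).
-/

set_option autoImplicit false

namespace Claimed.Agent.R292

open Claims Claims.C0468

/-- **[ARM]**  TEX[prop:circuits] (2), eq:spatial-attached-arm, for the flat plus problem in a Jordan face set whose wall reaches the box of radius `r`:
the good plus edges separate `F ∩ box r` from `F \ box R` inside `F` up to probability `C (r / R) ^ α`.      PRODUCER: RSW (122; pens 107, 101). -/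
theorem exit_rsw_arm (t : ℝ) (ht1 : 1 / 2 ≤ t) (ht2 : t < 1) :
    ∃ C α : ℝ, 0 < C ∧ 0 < α ∧ ∀ (F : Finset (ℤ × ℤ)) (z : ℤ × ℤ) (r R : ℕ), RswJordan F → 1 ≤ r → r ≤ R → ¬ rswBox z r ⊆ F →
      rswP t F true (fun ω => ¬ RswSep F true ω (F ∩ rswBox z r) (F \ rswBox z R)) ≤ C * ((r : ℝ) / R) ^ α :=
  rsa107_exit_plain t ht1 ht2

/-- (proved)  the form with the seals of the wall cluster implies the contract. -/
theorem jd_arm_of_sepW (t : ℝ) (ht1 : 1 / 2 ≤ t) (ht2 : t < 1)
    (harm : ∃ C α : ℝ, 0 < C ∧ 0 < α ∧ ∀ (F : Finset (ℤ × ℤ)) (z : ℤ × ℤ) (r R : ℕ), RswJordan F → 1 ≤ r → r ≤ R → ¬ rswBox z r ⊆ F →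
      rswP t F true (fun ω => ¬ RswSepW F ω (F ∩ rswBox z r) (F \ rswBox z R)) ≤ C * ((r : ℝ) / R) ^ α) :
    ∃ C α : ℝ, 0 < C ∧ 0 < α ∧ ∀ (F : Finset (ℤ × ℤ)) (z : ℤ × ℤ) (r R : ℕ), RswJordan F → 1 ≤ r → r ≤ R → ¬ rswBox z r ⊆ F →
      rswP t F true (fun ω => ¬ RswSep F true ω (F ∩ rswBox z r) (F \ rswBox z R)) ≤ C * ((r : ℝ) / R) ^ α :=
  ja281_arm_weaken (by linarith) ht2.le harm

/-- **[SCALE]** (proved)  the face sets of an admissible approximation are Jordan at mesh one. -/
theorem jd_rsw {D : Set (ℝ × ℝ)} {δ : ℕ → ℝ} {F : ℕ → Finset (ℤ × ℤ)} (h : IsAdmissibleApprox D δ F) (n : ℕ) : RswJordan (F n) :=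
  ja281_jordan h n

/-- **[ARCH]** (proved from [ARM]) = `gauss_arch`. -/
theorem jd_arch (t : ℝ) (ht1 : 1 / 2 ≤ t) (ht2 : t < 1) (D : Set (ℝ × ℝ)) (_hD : GaussDom D) (δ : ℕ → ℝ) (F : ℕ → Finset (ℤ × ℤ))
    (hF : IsAdmissibleApprox D δ F) : GaussArch t D δ F :=
  ja281_arch_plain (by linarith) ht2.le (exit_rsw_arm t ht1 ht2) hF

end Claimed.Agent.R292
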