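import Claimed.Agent.R292.Defs.BETHE
import Claimed.Agent.R292.Bethe.Top

/-!
# Row 292 (and 290), unit BETHE: the output of the unit

`ba_stiffness`: the free energy of the six-vertex torus near the balanced sector,
`f (s) - f (0) = - arcsin (c / 2) * s ^ 2 / 2 + o (s ^ 2)`, limits in the order `M → ∞`, `L → ∞`, `s → 0`.
PROVED here from `ba_top` (`Bethe/Top.lean`).  STATE (116, 15 Oct 22:30Z): the three contracts T1 T2 T3 of `Bethe/Thermo.lean` and the endpoint `c = 2`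
(`Bethe/Two10.lean`) are all CLOSED: the unit has no sorry left.
-/

namespace Claimed.Agent.R292

/-- **Exit of the unit BETHE.**  `L = 2 l` rows, sector `n = l - ⌊s l⌋`, slope `≈ s`. -/
theorem ba_stiffness (c : ℝ) (hc1 : 1 < c) (hc2 : c ≤ 2) :
    ∀ ε : ℝ, 0 < ε → ∃ s₀ : ℝ, 0 < s₀ ∧ ∀ s : ℝ, 0 < s → s < s₀ →
      ∃ l₀ : ℕ, ∀ l : ℕ, l₀ ≤ l → ∃ M₀ : ℕ, ∀ M : ℕ, M₀ ≤ M →
        |(Real.log (baZ c M (2 * l) (l - ⌊s * l⌋₊)) - Real.log (baZ c M (2 * l) l)) /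
              (2 * (l : ℝ) * (M : ℝ)) + Real.arcsin (c / 2) * s ^ 2 / 2| ≤ ε * s ^ 2 := by
  intro ε hε
  obtain ⟨s₀, hs₀, H⟩ := ba_top c hc1 hc2 ε hε
  refine ⟨s₀, hs₀, fun s hs hlt => ?_⟩
  obtain ⟨l₀, hl⟩ := Filter.eventually_atTop.1 (H s hs hlt)
  refine ⟨l₀, fun l hl' => ?_⟩
  obtain ⟨M₀, hM⟩ := Filter.eventually_atTop.1 (hl l hl')
  refine ⟨M₀, fun M hM' => ?_⟩
  have h := hM M hM'
  have e : Real.arcsin (c / 2) * s ^ 2 / 2 = Real.arcsin (c / 2) / 2 * s ^ 2 := by ring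
  rw [e]
  exact h

end Claimed.Agent.R292
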