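import Claimed.Agent.R292.Defs.Top
import Claimed.Agent.R292.Exit.BETHE

/-!
# Row 292, Exit/Bethe : `sv_bethe`, PROVED      (typed by helper24; OWNER = unit BETHE, head helper116)

`f''(0) = -arcsin(c/2)` for the six-vertex free energy per site as a function of the slope (DCKKMT 2022; DKLM 2026 Theorem 4.4), `1 < c ≤ 2`.

STATE (116, 15 Oct 22:30Z): CLOSED.  `sv_bethe` is a COROLLARY of the exit `ba_stiffness` of the unit BETHE (`Exit/BETHE.lean`; glue by 249, 19:05Z: the two
vocabularies agree by `rfl`, `sv_baZ_eq : svZN = baZ`).  No file of the import closure (56 modules of `R292/{Bethe,Exit,Defs}` and `R290`) has a sorry;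
the kernel frontier of `sv_bethe` is propext, Classical.choice, Quot.sound (checked on the boxes of 116, 200, 230 and 80).
NOT CLAIMED: no rate in `L`, `M` (no Casimir term: limits in the order `M → ∞`, `L → ∞`, `s → 0`), nothing for `c ≤ 1` or `c > 2`.
-/

set_option autoImplicit false

namespace Claimed.Agent.R292

/-- the sector partition function of the hub (`Defs/Top`) is the one of the unit BETHE (`Defs/BETHE`) -/
theorem sv_baZ_eq (c : ℝ) (M L n : ℕ) : svZN c M L n = baZ c M L n := rfl

theorem sv_bethe (c : ℝ) (hc1 : 1 < c) (hc2 : c ≤ 2) : SvStiff c (Real.arcsin (c / 2)) := by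
  intro ε hε
  obtain ⟨s₀, hs₀, H⟩ := ba_stiffness c hc1 hc2 ε hε
  refine ⟨s₀, hs₀, fun s hs hlt => ?_⟩
  obtain ⟨l₀, hl⟩ := H s hs hlt
  filter_upwards [Filter.eventually_ge_atTop l₀] with L hL
  obtain ⟨M₀, hM⟩ := hl L hL
  filter_upwards [Filter.eventually_ge_atTop M₀] with M hMM
  have h := hM M hMM
  rw [sv_baZ_eq, sv_baZ_eq]
  have e : Real.arcsin (c / 2) / 2 * s ^ 2 = Real.arcsin (c / 2) * s ^ 2 / 2 := by ring
  rw [e]
  exact h

end Claimed.Agent.R292
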