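import Claimed.Agent.R292.Defs.Bridge
import Claimed.Agent.R292.Exit.Bethe

/-!
# Row 292, Exit/Bridge : CONTRACT `at_bridge`      (typed by helper24; OWNER = unit BRIDGE, heads helper27 + helper243; pen helper243)

DKLM 2026 Theorem 4.3 (conditional amplitude theorem; the text is NOT in the box; AT paper Sec 10.2 lists its steps):
a Gaussian limit with multiplier `σ² = 4 v` for the unit-step height `K = 2 H` forces `f''(0) = -1/σ²`.

WEAKEST FORM THE HUB CONSUMES (remark of helper189, adopted 18:50Z): the quadratic expansion `f(s) - f(0) = -(A/2) s² (1 + o(1))` is GIVEN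
(`SvStiff t⁻¹ A`, delivered by unit BETHE); BRIDGE only identifies the number `A`:
* `at_bridge_ge_contract`  (GE)  `A ≤ 1/σ² = 1/(4v)`   sloped configurations are at least as many as the GFF predicts.
* `at_bridge_le_contract`  (LE)  `1/(4v) ≤ A`          ... at most as many.
`at_bridge' : A = 1/(4v)`;  `at_bridge` (type of helper24, unchanged, consumed by `Hub.lean`) follows with `sv_bethe`.

FINAL STATE OF THE TEXT (22:45Z, 15 Oct; helper27 + helper243).  **BOTH CONTRACTS BELOW ARE UNPROVED (2 `sorry`); NO COMPLETE PAPER PROOF EXISTS IN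
THE BOX.**  `sv_bethe` is proved, so `at_bridge` rests on exactly these two.  Nothing in this paragraph is in the kernel unless a file is named.
Notes: origin/helper27:notes/R292/BRIDGE_WALL_27.md (Sec. 6, 7), origin/helper24:notes/R292/BRIDGE_24.md and RCD_24.md, origin/helper9:notes/R292/BRIDGE_9.md.
Notation: flat strip of height `N` and length `M`, `Z_N(0|a)` = partition function with the walls at the levels `0` and `a`,
`R_N(a) = -(1/M) log (Z_N(0|a) / Z_N(0|0))`.
* IN THE KERNEL (soft, exact): T1 - T3 = lattice log-supermodularity, fold, flat maximum (`Bridge/Lsm149`); all moments and the Laplace transform of a pairing with `φ ≥ 0` increase with the domain (`Bridge/Even49`);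
  sector transfer matrix, `SvStiff` through its top eigenvalue (`Bridge/Lam189`, `Bridge/SectTM289`, `Bridge/Sect149`, `Bridge/Wind289`);
  two-sided block / tile reductions of `SvStiffLe`, `SvStiffGe` (`Bridge/TwoSide129`); Gaussian tails (`Bridge/Tail129`); capacity test functions (`Bridge/Cap209`, `Bridge/Poisson69`,
  `Bridge/Rect89`); dictionary six-vertex / heights (`Bridge/Dict109`).
* GE HAS A ROAD ON PAPER, NOT A CHECKED TEXT (243, messages 125181; 27, Sec. 6).  Lemma M (T1 alone): `z ↦ Z_N(0|z+t) / Z_N(0|z)` is non-increasing for `t ≥ 0`.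
  Lemma C (comparison of boundary conditions for `|K|`): `-log (Z_R(0|a) / Z_R(0|0))` decreases when the region `R` grows.  Prop (i''): for `N = N1 + N2`, `a = a1 + a2`,
  `Z_N(0|a) / Z_N(0|0) ≥ P_flat(a level-0 cut in the band [N1 - w, N1]) * exp (-M (R_{N1-w}(a1) + R_{N2}(a2)))`: only the FLAT law is asked for crossing estimates.
  So GE follows from the flat RSW toolbox (unit RSW: itself unproved) and (W1) = the sharp LOWER bound for a level-`k` crossing of a `ρN × N` box under the flat law,
  which 27 reduces to sub-Gaussian constants `C_p ≤ C √p` in `exit_rsw_mom_smear` (not what that contract states today).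
* LE HAS NO TEXT.  Exact reductions: (a) reflection positivity + Weyl / Schatten on a block torus `T` (27, Sec. 7):
  `p(h) |T| ≤ log E_T exp (h O) + (log Z_0(T) - f(0) |T|)`, so LE follows from (CasT) a Casimir bound `log Z_0(T) - f(0) |T| ≤ C` (24: a text modulo flat RSW) and
  (LapT) the sharp UPPER bound of the Laplace transform of the zigzag observable `O` on a torus of fixed shape: no text;  (b) (243, message 125738) super-additivity of `R` is
  EQUIVALENT to a crossing estimate under the TILTED law (circular);  (c) Hellinger / Chernoff: LE follows from moderate deviations of the mid-row sum under the flat law,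
  uniformly in the length, which `AtFlatGFF` (fixed moments, Jordan domains) does not give;  (d) 27, 22:30Z: a six-step road for the lower half of `R` across the strip;
  cuts ALONG the level lines cost `exp (-C λ² ρ)` with every known a-priori bound = the order of the signal.
* DEAD ENDS (do not repeat): row-by-row inductions lose `√(log n) / k`; `⟨Ω, T(λ)^M Ω⟩ ≤ Λ(λ)^M` is unjustified (`T(λ)` is not symmetric); `P_h(flat mid rows) ≥ P_0(flat mid rows)` is false in a 1D toy.
-/

set_option autoImplicit false

namespace Claimed.Agent.R292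

/-- **CONTRACT BRG-GE'**. -/
theorem at_bridge_ge_contract (t v A : ℝ) (ht1 : 1 / 2 ≤ t) (ht2 : t < 1) (hv : 0 < v) (h : AtFlatGFF t v)
    (hA : SvStiff t⁻¹ A) : A ≤ 1 / (4 * v) := by
  sorry

/-- **CONTRACT BRG-LE'**. -/
theorem at_bridge_le_contract (t v A : ℝ) (ht1 : 1 / 2 ≤ t) (ht2 : t < 1) (hv : 0 < v) (h : AtFlatGFF t v)
    (hA : SvStiff t⁻¹ A) : 1 / (4 * v) ≤ A := by
  sorry

/-- the weakest form of the bridge. -/
theorem at_bridge' (t v A : ℝ) (ht1 : 1 / 2 ≤ t) (ht2 : t < 1) (hv : 0 < v) (h : AtFlatGFF t v)
    (hA : SvStiff t⁻¹ A) : A = 1 / (4 * v) :=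
  le_antisymm (at_bridge_ge_contract t v A ht1 ht2 hv h hA) (at_bridge_le_contract t v A ht1 ht2 hv h hA)

theorem at_bridge (t v : ℝ) (ht1 : 1 / 2 ≤ t) (ht2 : t < 1) (hv : 0 < v) (h : AtFlatGFF t v) :
    SvStiff t⁻¹ (1 / (4 * v)) := by
  have ht : 0 < t := by linarith
  have hc1 : 1 < t⁻¹ := (one_lt_inv₀ ht).2 ht2
  have hc2 : t⁻¹ ≤ 2 := by
    rw [inv_le_comm₀ ht (by norm_num)]; linarith
  have hB := sv_bethe t⁻¹ hc1 hc2
  rw [← at_bridge' t v _ ht1 ht2 hv h hB]
  exact hB

end Claimed.Agent.R292
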