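import Claimed.Agent.R292.Defs.GaussArch
import Claimed.Agent.R292.Exit.Arch

/-!
# Row 292, Exit/GaussArch : CONTRACT `gauss_arch`, FILLED (281): `jd_arch` of Exit/Arch, from the single lattice contract `exit_rsw_arm`      (typed by the consumer helper181 / 62; PRODUCERS: RSW (122) for the conditional circuit estimate, JORDAN (281) for the geometry)

TEX[prop:boundary-decay] + TEX[prop:circuits, prop:comparison].  Route of the paper: the polygon of `F n` is a Jordan curve uniformly close to `frontier D`, so for `n` large it joins the disc of radius `r`
about `p` to the outside of the disc of radius `R` (for `R < diam D / 2`; for larger `R` the set `gaussOut` is empty and the statement is trivial for `R` beyond the diameter, monotone in between).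
In each of the `~ log (R / r)` dyadic annuli about `p`, conditionally on everything outside, with probability `≥ c > 0` there is a circuit about `p` made of open `W` edges with PLUS ends inside `F n` and of arbitrary
edges off `F n`; it meets the polygon, so each of its arcs inside `F n` starts and ends on the polygon: height `0` along it.  Consumer: `gauss_bd` (cluster flip + Hoelder).
-/

set_option autoImplicit false

namespace Claimed.Agent.R292

open Claims Claims.C0468

theorem gauss_arch (t : ℝ) (ht1 : 1 / 2 ≤ t) (ht2 : t < 1) (D : Set (ℝ × ℝ)) (hD : GaussDom D) (δ : ℕ → ℝ) (F : ℕ → Finset (ℤ × ℤ))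
    (hF : IsAdmissibleApprox D δ F) : GaussArch t D δ F :=
  jd_arch t ht1 ht2 D hD δ F hF

end Claimed.Agent.R292
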