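import Claimed.Agent.R292.Rsw.CoreFrontier121

/-!
# Row 292, Exit/RSWFront      THE OPEN CONTRACTS OF UNIT RSW AND `exit_rsw_circuit` (head helper122), v13, 15 Oct 23:52Z

THIS FILE LIES BELOW `Exit/RSW` (since v8): `Model/CircShift101` and `Model/Circ1` import THIS file for `exit_rsw_circuit`; `Exit/RSW` imports this file and `Rsw/MomArm11`.

WHAT IS PROVED HERE: `exit_rsw_circuit` ([DKLM Thm 16.4], weak form: one ratio `κ`, `n ≥ n0`) FROM THE FOUR OPEN CONTRACTS BELOW (`exit_rc_lf`, `exit_rc_cclosed`, `exit_rc_lssd`, `exit_rc_d`) AND FROM NOTHING ELSE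
(assembly: `rcf121_topP` (= `rcf121_topP2`) of 121, Rsw/CoreFrontier121, which has them as hypotheses and 0 sorry; its header says more on each of them).
MACHINE FRONTIER of `R292.at_hub` (constants that use `sorryAx` directly, traversal of the compiled environment): these four + `at_bridge_le_contract`, `at_bridge_ge_contract` (BRIDGE).  Nothing else.
The four `sorry`s of this file are the ONLY `sorry`s of unit RSW: `Exit/RSW` has none of its own.   NONE OF THE FOUR IS PROVED.
CAVEAT: the four statements were typed by their pens (86; 282 + 182; 109; 121) as ports of statements of R291 to `ℤ²`; nobody has checked them against degenerate parameters beyond the guards one reads in them (one such defect, `L = 0` in (perJ), was found and repaired at 23:42Z).   ROW 292 (S0540) IS NOT PROVED AND NOT CLAIMED.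

| name              | statement (def in)                      | state                                                                                                      |
|---|---|---|
| `exit_rc_chain`   | `RcChain t`      (Rsw/CoreTop121)       | PROVED (299 + 251 22 189, Rsw/ChainTop299 `rch299_rcChain`)                                                |
| `exit_rc_poly`    | `RcPoly t`       (Rsw/CoreTop121)       | PROVED (159, Rsw/Poly159 `rpo159_rcPoly`)                                                                  |
| `exit_rc_mono`    | `RcMono t`       (Rsw/CoreTop121)       | PROVED (291, Rsw/Mono291 `rcm291_mono`)                                                                    |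
| `exit_rc_rec`     | `RcRec t`        (Rsw/CoreTop121)       | PROVED FROM `exit_rc_lf`, `exit_rc_cclosed`, `exit_rc_lssd` (`rcf121_rec`; A5 whole: 12 109 189 31 162 69; A4 WHOLE: 127 162 69 111 12 291 31; A3 but (L): 86 257 117 180 210 240 292; A2: 182 102 31 52 291 292; kit: 96 169 57) |
| `exit_rc_perj`    | `∀ L H, 0 < L → Rcs127PerJc t L H`      | PROVED 23:44Z (A4, second half of the field `sym`: 69 127 111 162 12 291 31; `rcf121_perJc` = `rhp31_perJc`).   ERRATUM: v8 - v11 of this file had this line as an open contract WITHOUT `0 < L`; that statement is FALSE at `L = 0` (121, 23:42Z: empty cylinder, `1 ≤ 2 * 0` is asked; argument on paper), so in those versions the derivation of `exit_rsw_circuit` was worth nothing |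
| `exit_rc_lf`      | `A3t86Lf t`                             | **OPEN** (A3): the estimate (L) in a closed strip, for FAR records only (it gives the near / far alternative `A3t86Alt t` = `exit_rc_alt`: `a3t86_alt_of_Lf`, 86 117 110 257 180); on `ℤ²` the mirror must exchange sites and faces: no page written for `ℤ²`, NOT TYPED |
| `exit_rc_cclosed` | `Lsa282CClosed t`                       | **OPEN** (A2 / A1.2): crossing of the CLOSED rectangle with mixed boundary condition; it gives `Rse182CLSS t` = (LSS) on the mixed cylinder (`lsa282_clss`, 182 + 282); same estimate as the next line, the bridge between the two is not written (182, 23:28Z) |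
| `exit_rc_lssd`    | `RnzLSSd t (·.1) (·.2)`                 | **OPEN** (A1): crossing of a strip with mixed boundary condition in the plane, ONE orientation (it gives `RnzLSS t` = `exit_rc_lss`: transposition `lss57_lss_of_one`, 57); steps (a) - (d) of 291 are on main (251 237 202 212 12); step (e) = the larger symmetric domain of the paper (remark of 102, 22:12Z), about 3000 lines, NOT TYPED |
| `exit_rc_d`       | `RcD t`          (Rsw/CoreTop121)       | **OPEN, A WALL: NO COMPLETE PROOF ON PAPER.**  It excludes the first order scenario (continuity of the transition: Glazman-Lammers 2023, or DKMO + Bethe; neither is in the box).  Partial texts: `c ≤ √2` (121, two-copy swap, `origin/helper121:notes/R292/RCD_121.md`); all `c` from `sv_bethe` modulo ONE open claim (CYL) = the arm bound on long cylinders (24, `origin/helper24:notes/R292/RCD_24.md`; reading and what is left: `origin/helper122:notes/R292/RCD_122.md`) |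
-/

set_option autoImplicit false

namespace Claimed.Agent.R292

open Claims Claims.C0468 Claims.C0466 Filter Topology

/-! ## proved -/

theorem exit_rc_chain (t : ℝ) (ht1 : 1 / 2 ≤ t) (ht2 : t < 1) : RcChain t :=
  rch299_rcChain t ht1 ht2

theorem exit_rc_poly (t : ℝ) (ht1 : 1 / 2 ≤ t) (ht2 : t < 1) : RcPoly t :=
  rpo159_rcPoly t ht1 ht2

theorem exit_rc_mono (t : ℝ) (ht1 : 1 / 2 ≤ t) (ht2 : t < 1) : RcMono t := by
  unfold RcMono rcU
  exact rcm291_mono t ht1 ht2

/-- (A4) second half of the field `sym` of the law of the tall cylinder: PROVED 23:44Z (69 127 111 162 12 291 31; `rcf121_perJc`) -/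
theorem exit_rc_perj (t : ℝ) (ht1 : 1 / 2 ≤ t) (ht2 : t < 1) : ∀ L H : ℕ, 0 < L → Rcs127PerJc t L H :=
  fun _ H hL => rcf121_perJc ht1 ht2.le hL H

/-! ## THE FOUR OPEN CONTRACTS -/

/-- OPEN CONTRACT (A3): the estimate (L) for far records -/
theorem exit_rc_lf (t : ℝ) (ht1 : 1 / 2 ≤ t) (ht2 : t < 1) : A3t86Lf t := by
  sorry

/-- OPEN CONTRACT (A2 / A1.2): the planar closed-rectangle contract, which gives (LSS) on the mixed cylinder (`lsa282_clss` of 182 + 282) -/
theorem exit_rc_cclosed (t : ℝ) (ht1 : 1 / 2 ≤ t) (ht2 : t < 1) : Lsa282CClosed t := by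
  sorry

/-- OPEN CONTRACT (A1): (LSS) in the plane, ONE orientation -/
theorem exit_rc_lssd (t : ℝ) (ht1 : 1 / 2 ≤ t) (ht2 : t < 1) : RnzLSSd t (fun f => f.1) (fun f => f.2) := by
  sorry

/-- OPEN CONTRACT, **WALL** (Theorem D on `ℤ²`; no complete proof on paper) -/
theorem exit_rc_d (t : ℝ) (ht1 : 1 / 2 ≤ t) (ht2 : t < 1) : RcD t := by
  sorry

/-! ## from the four -/

/-- near / far alternative of A3 (86 117 110 257 180: `a3t86_alt_of_Lf`) -/
theorem exit_rc_alt (t : ℝ) (ht1 : 1 / 2 ≤ t) (ht2 : t < 1) : A3t86Alt t :=
  a3t86_alt_of_Lf (exit_rc_lf t ht1 ht2)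

/-- (LSS) in the plane, both orientations (57: transposition, `lss57_lss_of_one`) -/
theorem exit_rc_lss (t : ℝ) (ht1 : 1 / 2 ≤ t) (ht2 : t < 1) : RnzLSS t :=
  lss57_lss_of_one (exit_rc_lssd t ht1 ht2)

theorem exit_rc_rec (t : ℝ) (ht1 : 1 / 2 ≤ t) (ht2 : t < 1) : RcRec t :=
  rcf121_recP ht1 ht2 (exit_rc_perj t ht1 ht2) (exit_rc_alt t ht1 ht2) (exit_rc_cclosed t ht1 ht2) (exit_rc_lss t ht1 ht2)

/-- **[DKLM Thm 16.4], weak form**, from the four open contracts of this file -/
theorem exit_rsw_circuit (t : ℝ) (ht1 : 1 / 2 ≤ t) (ht2 : t < 1) :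
    ∃ (κ n0 : ℕ) (p : ℝ), 2 ≤ κ ∧ 0 < p ∧ ∀ n : ℕ, n0 ≤ n →
      p ≤ rswP t (rswBox 0 (κ * n)) true
        (fun ω => RswSep (rswBox 0 (κ * n)) false ω (rswBox 0 n) (rswLayer (rswBox 0 (κ * n)))) :=
  rcf121_topP ht1 ht2 (exit_rc_perj t ht1 ht2) (exit_rc_alt t ht1 ht2) (exit_rc_cclosed t ht1 ht2) (exit_rc_lss t ht1 ht2)
    (exit_rc_d t ht1 ht2)

end Claimed.Agent.R292
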