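import Claimed.Agent.R292.Defs.RSW
import Claimed.Agent.R292.Exit.RSWFront
import Claimed.Agent.R292.Rsw.MomSmear131
import Claimed.Agent.R292.Rsw.CutStop151
import Claimed.Agent.R292.Rsw.PlaneIn31
import Claimed.Agent.R292.Rsw.CmpPin291
import Claimed.Agent.R292.Rsw.BoxJordan219
import Claimed.Agent.R292.Rsw.MomArm11

/-!
# Row 292, Exit/RSW      THE EXITS OF UNIT RSW (head helper122)      = the inputs of [DKLM2026] used by the AT paper, `1/2 ≤ t < 1` (`c = 1/t ∈ (1,2]`)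

STATE (v3, 15 Oct 23:10Z): THIS FILE HAS NO `sorry` OF ITS OWN.  The four exits are PROVED FROM THE FOUR OPEN CONTRACTS OF `Exit/RSWFront`
(`exit_rc_lf`, `exit_rc_cclosed`, `exit_rc_lssd`, which give (REC), and `exit_rc_d` = Theorem D, a WALL without a complete proof on paper); see the table there and Rsw/CoreFrontier121 (121).
So none of the four exits is proved outright, and ROW 292 IS NOT PROVED.

* `exit_rsw_circuit`    (declared in `Exit/RSWFront`) [DKLM Thm 16.4], TEX 03-spatial l.414: MINUS `W`-circuit in the annulus `Λ_{κn} \ Λ_n` under the PLUS wired flat law of `Λ_{κn}`, uniformly in `n ≥ n0`.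
                        WEAK FORM, the shape of R291 `exit_circuit`: ONE ratio `κ`, `n ≥ n0`; other ratios / small `n` / other colour by comparison and flips (Model/Circ1, Model/CircShift101).
* `exit_rsw_plane`      [DKLM Thm 17.1], TEX 03-spatial l.305, 04-spectral l.14: one plane law = limit of ALL flat exhaustions, both colours.      From the circuit: 31 171 205 (`rpi31_plane`), 291 (`cmp291_exit_cmp`), 219 (`bj219_box_jordan`).
* (`exit_rsw_torus` [DKLM Lemma 18.7(iii) + Thm 2.2] DROPPED: no consumer; BRIDGE works on the sector partition functions `svZN` directly.)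
* `exit_rsw_mom_plane`  [DKLM Thm 4.5, smeared], TEX eq:plane-neutral-moments: uniform moments of zero-total smearings (port of R291 `exit_mom_plane`).      From the circuit: 151 (`mpl151_exit_plane`, `mpl151_circ_of_exit`), 131.   (A second proof: 81, Screen/Cnt81 `cnt81_mom_plane`.)
* `exit_rsw_mom_smear`  [DKLM Thm 4.5, smeared], TEX eq:shrinking-smearing-moment: log bound for smearings with total mass (port of R291 `exit_mom_smear`).      From the circuit: 131 (`msm131_exit_cov`), 11 164 225 219 107 (`mar11_exit`).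
Outside this file: `exit_rsw_arm` (Exit/Arch) = `rsa107_exit` (107, Rsw/ArchWire107), from `mdl1_circ_cond` (seat 1), i.e. from the circuit.
-/

set_option autoImplicit false

namespace Claimed.Agent.R292

open Claims Claims.C0468 Claims.C0466 Filter Topology

/-! ## the plane law -/

theorem exit_rsw_plane (t : ℝ) (ht1 : 1 / 2 ≤ t) (ht2 : t < 1)
    (R : Finset (ℤ × ℤ)) (R' : Finset ((ℤ × ℤ) × Bool)) (X : RswCfg → ℝ) (hX : RswLoc R R' X) :
    ∃ ℓ : ℝ, ∀ ε : ℝ, 0 < ε → ∃ n0 : ℕ, ∀ (F : Finset (ℤ × ℤ)) (b : Bool),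
      RswJordan F → rswBox 0 n0 ⊆ F → |rswE t F b X - ℓ| < ε :=
  rpi31_plane ht1 ht2 (fun F hF b a K hK X Y hX hY => cmp291_exit_cmp t ht1 ht2 F hF b a K hK X Y hX hY)
    (fun _ hn => bj219_box_jordan 0 hn) (exit_rsw_circuit t ht1 ht2) R R' X hX

/-! ## the moments -/

theorem exit_msm_covE (t : ℝ) (ht1 : 1 / 2 ≤ t) (ht2 : t < 1) : Msm131CovE t :=
  mar11_exit t ht1 ht2 (exit_rsw_circuit t ht1 ht2)

theorem exit_mpl_circ (t : ℝ) (ht1 : 1 / 2 ≤ t) (ht2 : t < 1) : Mpl151Circ t :=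
  mpl151_circ_of_exit (by linarith) ht2 (exit_rsw_circuit t ht1 ht2)
    (fun F hF X Y hX hY => cmp291_exit_cmp t ht1 ht2 F hF true true mpl151Pin mpl151_pin_ok X Y hX hY)

theorem exit_rsw_mom_plane (t : ℝ) (ht1 : 1 / 2 ≤ t) (ht2 : t < 1) :
    ∃ C0 : ℕ, ∀ p : ℕ, ∃ C : ℝ, 0 < C ∧ ∀ (F : Finset (ℤ × ℤ)) (z0 : ℤ × ℤ) (a : ℕ) (A : ℝ) (w : (ℤ × ℤ) →₀ ℝ),
      RswJordan F → 1 ≤ a → rswBox z0 (C0 * a) ⊆ F → RswSm z0 a A w → w.sum (fun _ x => x) = 0 →
      rswE t F true (fun ω => |rswArr w (rswH F ω)| ^ p) ≤ (C * A) ^ p :=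
  mpl151_exit_plane t ht1 ht2 (exit_mpl_circ t ht1 ht2) (msm131_exit_covE t ht1 ht2 (exit_msm_covE t ht1 ht2) 2)

theorem exit_rsw_mom_smear (t : ℝ) (ht1 : 1 / 2 ≤ t) (ht2 : t < 1) (p : ℕ) :
    ∃ C : ℝ, 0 < C ∧ ∀ (F : Finset (ℤ × ℤ)) (z0 : ℤ × ℤ) (a n : ℕ) (A : ℝ) (w : (ℤ × ℤ) →₀ ℝ),
      RswJordan F → 1 ≤ a → rswBox z0 (3 * a) ⊆ F → ¬ rswBox z0 n ⊆ F → RswSm z0 a A w →
      rswE t F true (fun ω => |rswArr w (rswH F ω)| ^ p) ≤
        (C * A * (1 + Real.sqrt (Real.log ((n : ℝ) / a)))) ^ p :=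
  msm131_exit_cov t ht1 ht2 (msm131_cov_of_E (exit_msm_covE t ht1 ht2)) p

end Claimed.Agent.R292
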