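import Claimed.Agent.R292.Defs.Screen
import Claimed.Agent.R292.Screen.Glue52
import Claimed.Agent.R292.Screen.Cut229b

/-!
# Row 292 (S0540), Exit/Screen : THE OUTPUT OF THE UNIT "SCREEN"      (head helper229; prefix `scr`, contract `at_screen`)

AT paper, Proposition 5.1 (exterior orthogonality), flat-domain form, by duality (`‖E[X | ext]‖₁ = sup_{|G| ≤ 1, G ext} |E[X G]|`),
for the FROZEN pairing `at92X δ (Δφ)` (primal corners only, plain Riemann sum), uniformly over all flat domains that contain `Q⁺`.

CONSUMER = GAUSS (Sec 6: separate harmonicity of every subsequential k-point function; spectators = heights read along paths outside `Q`).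

END STATE (00:02Z Oct 16, main ceafa6762b): `at_screen` IS PROVED (no `sorry` in this file, in `Screen/Cut229*.lean` or in any producer) FROM THE OPEN CONTRACTS OF ONE OTHER UNIT, RSW, and from nothing else.
Machine traversal of the compiled environment (every constant under `at_screen` whose type or value mentions `sorryAx`) at that commit: EXACTLY FOUR NAMES, all in Exit/RSWFront:
  `exit_rc_lf`, `exit_rc_cclosed`, `exit_rc_lssd`, `exit_rc_d`.
The header of Exit/RSWFront (122) is the authority on their statements, state and caveats: NONE OF THE FOUR IS PROVED; they are ports to `ℤ²` typed by their pens and were not checked against degenerate parameters beyond the guards one reads in them.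
Unit MODEL is closed (`exit_mdl_wb` 22:35Z: 191 101 201 41; `exit_mdl_wmixed` replaced 23:03Z: 191 261 72); Exit/RSW has no `sorry` of its own since 23:19Z (122); (perJ) was closed at 23:44Z (69 127 111 162 12 291 31 121).
So `at_screen` is a CONDITIONAL theorem: its axiom closure contains `sorryAx` through these four names, and ROW 292 STAYS OPEN (there is no S0540 file).  WHY THEY STAY OPEN:
  `exit_rc_lf` (far estimate (L) in a closed strip): no text on `ℤ²`;  `exit_rc_cclosed`, `exit_rc_lssd` (crossing with mixed boundary condition, closed rectangle / plane): step (e) of (LSS) is not typed (about 3000 lines);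
  `exit_rc_d` (`RcD`: lower bound for a dual circuit = continuity of the transition, Glazman-Lammers 2023, not in the box) is a wall: no complete proof on paper was found.
MAP OF THE PROOF (AT paper Sec 5; typed cuts by 229 in `Screen/Cut229` (reflection package), `Cut229b` (chain of Sec 5), `Cut229c` + `Defs/ScreenSep` (inside the separation lemma; own design: no coupling,
total variation by a stopping comparison; exact separation by a parity function, no Jordan curve theorem)):
  at_screen ⇐ Glue52 (52) ⇐ (FLAT) Flat32 (32; Flat252, Plane262) ⇐ (PL) Plane262 (262) ⇐ (SEP) Asm129 (129) + (COL) Col32 Col176 Col61 (32, 176, 61);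
  (SEP) ⇐ (CI) Ci239 MixCut199 (239, 199) + (POS) Pos260 (260) + (TV) Tv142 Tv91 Rsw/Holley12 (142, 91, 12) + (SHIELD) Shield99 Dual62 Sel99 (99, 62);
  (COL) ⇐ (GAP) Sep232 Place232 Gap99 (232, 99) ⇐ (P1) (P1') Sym99 (99) + (P2) RpAxis39 RpDiag62 (39, 62) + (P3) Tr142 (142) + (PAT) Sep232 (232; 141, 176, 287) + (M52) Mom221 Cnt81 Odd81 Mass81 (221, 81, 52, 257, 287, 100)
  + reflection-null Spec/ScrDict79 (79).      Not consumed (twins, kept as spares): Arm25, Arm39, Geo199, Gap62, Gap221, Mom179, Cmp129, Wire142, Inv289 (partly), Deco229.

INPUTS (other units):  SPEC  `cor:reflection-null`, `lem:positive-transfer`;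
                       MODEL `lem:finite-cuts`, `prop:comparison` (monotone stopping coupling), Markov property across a ring;
                       RSW   `prop:circuits` (tube form), `prop:cluster-counts` item 2, `prop:pattern-comparison`, `prop:full-contiguity`.
-/

set_option autoImplicit false

namespace Claimed.Agent.R292

open Claims Claims.C0468

/-- **CONTRACT `at_screen`** (AT paper Prop 5.1): a Laplace insertion in a small disk is asymptotically orthogonal to every bounded
observable of the two spins outside the concentric square `Q = scrSq z r`, uniformly over the flat domains between `Q⁺ = scrSq z r'`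
and a fixed big square `scrSq z R`.  (The upper bound `R` is NEEDED: the plain Riemann sum of `Δφ` is not exactly neutral, its total
mass `m_δ = O(δ²)` multiplies the wall-anchored level `|H| ≤ C R / δ`; without `R` the statement is false for huge domains.) -/
theorem at_screen (t : ℝ) (ht1 : 1 / 2 ≤ t) (ht2 : t < 1) (z : ℝ × ℝ) (r r' R : ℝ) (hr : 0 < r) (hrr : r < r')
    (φ : ℝ × ℝ → ℝ) (hφ : ContDiff ℝ ((⊤ : ℕ∞) : WithTop ℕ∞) φ) (hφs : tsupport φ ⊆ Metric.ball z (r / 1000))
    (ε : ℝ) (hε : 0 < ε) :
    ∃ δ₀ : ℝ, 0 < δ₀ ∧ ∀ δ : ℝ, 0 < δ → δ < δ₀ → ∀ F : Finset (ℤ × ℤ), ScrFlat δ F →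
      scrSq z r' ⊆ faceRegionSq δ F → faceRegionSq δ F ⊆ scrSq z R →
      ∀ G : at92Cfg F → ℝ, (∀ p, |G p| ≤ 1) → ScrExt δ F (scrSq z r) G →
        |scrE t F (fun p => at92X δ (lap2 φ) p * G p)| ≤ ε :=
  scr52g_screen_of_flat scr_cut_flat t ht1 ht2 z r r' R hr hrr φ hφ hφs ε hε

end Claimed.Agent.R292
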