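import Claimed.Agent.R292.Spec.B1
import Claimed.Agent.R292.Spec.B2
import Claimed.Agent.R292.Spec.B3
import Claimed.Agent.R292.Spec.B4

/-!
# Row 292 (S0540), Exit/SPEC : THE EXITS OF UNIT SPEC (AT paper Sec. 4)      (head helper79; prefix `asp`)

MODEL FREE: `AspIn a` (facts on the variogram of the plane law; suppliers MODEL [zero psd symX symS rp0 rp1] and RSW [sm nd]) gives
* `exit_spec` : ONE `v > 0` with TEX[prop:plane-green] in the Laplacian form as a FULL limit `δ ↓ 0` (`v = 2 π β`; consumer GAUSS) and TEX[cor:reflection-null] (consumer SCREEN)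
* `exit_spec_pc`, `exit_spec_null` : corollaries (sequences of meshes; the null part alone)
`exit_spec ⇐ asp_spec (B1) + asp_mix (B2) + asp_core (B3) + asp_cov (B4)`, compiled glue.      The log form (`AspGreenF`, Spec/B5) is not consumed and is not in the glue.
Route = port of R291 Pln/* + Spec/* to the square grid; NEW: two frames at angle π/4 replace the sixfold rotation (`χ₀ + χ₁ = 0` pointwise), also in the cutoff
identity that makes the coefficient unique (the AT paper keeps `β` subsequential; the hub wants one `v`).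
-/

set_option autoImplicit false

namespace Claimed.Agent.R292

open Claims Claims.C0468 MeasureTheory Filter Topology

/-- **EXIT OF SEC. 4**, model free -/
theorem exit_spec {a : AspG → ℝ} (h : AspIn a) : ∃ v : ℝ, 0 < v ∧ AspPCF (aspGam a) v ∧ AspRN (aspGam a) := by
  obtain ⟨Cf, K, hs⟩ := asp_spec h
  obtain ⟨c, hc, hp⟩ := asp_core hs (fun i => asp_mix h hs i)
  obtain ⟨hc', h1, h2⟩ := asp_cov h hs hc hp
  have hpi := Real.pi_pos
  exact ⟨(2 * Real.pi) ^ 2 * c, by positivity, h1, h2⟩

/-- the Laplacian form along any sequence of meshes (and hence along any ultrafilter of meshes) -/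
theorem exit_spec_pc {G : (AspG →₀ ℝ) → (AspG →₀ ℝ) → ℝ} {v : ℝ} (h : AspPCF G v) (δ : ℕ → ℝ) (hδ : ∀ n, 0 < δ n)
    (hδ0 : Tendsto δ atTop (𝓝 0)) : AspPC G δ v := by
  intro η g hη hg hg0
  exact (h η g hη hg hg0).comp (tendsto_nhdsWithin_iff.2 ⟨hδ0, Eventually.of_forall hδ⟩)

/-- **TEX[cor:reflection-null]**, model free -/
theorem exit_spec_null {a : AspG → ℝ} (h : AspIn a) : AspRN (aspGam a) :=
  (exit_spec h).choose_spec.2.2

end Claimed.Agent.R292
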