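import Claimed.Agent.R292.Defs.GAUSS
import Claimed.Agent.R292.Gauss.Glue172
import Claimed.Agent.R292.Gauss.Sm182
import Claimed.Agent.R292.Gauss.Bd172
import Claimed.Agent.R292.Gauss.Flip162
import Claimed.Agent.R292.Gauss.Depth172
import Claimed.Agent.R292.Exit.GaussArch
import Claimed.Agent.R292.Gauss.Harm162
import Claimed.Agent.R292.Exit.Screen
import Claimed.Agent.R292.Exit.RSW
import Claimed.Agent.R292.Gauss.Dec72
import Claimed.Agent.R292.Gauss.Var72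
import Claimed.Agent.R292.Gauss.Pl292
import Claimed.Agent.R292.Spec.B6
import Claimed.Agent.R292.Rsw.Rate72
import Claimed.Agent.R292.Rsw.ArchWire107

/-!
# Row 292 (S0540), Exit/GAUSS : THE CONTRACTS OF UNIT GAUSS (AT paper, Sec 6)      (typed by helper181, head of GAUSS; prefix `gauss_`)

TREE      `at_flat` (Exit/Flat) := `gauss_flat` (PROVED here)  ⇐  `gauss_glue` (FILLED: `gauss172_glue`, 172; copy of R291/Lim/Bind on `wk_main`, `lm_of_T`)
                                                                  + `gauss_sm` (FILLED, 182, from `exit_rsw_mom_smear`) + `gauss_harm` (FILLED, 162, from `at_screen`) + `gauss_bd` (172 + 162, from Exit/GaussArch) + `gauss_dec` (72).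
THE CONSTANT.  The AT paper keeps the constant of TEX[eq:subsequential-kappa] subsequential until Prop 6.14.  SPEC (79) owes MORE than the paper: ONE `v` and a FULL limit `δ ↓ 0`
(`exit_spec`, port of the cutoff identity of R291/Pln).  So `gauss_dec` is typed with one `v = v(t)` for all meshes, ultrafilters and domains, and the top cut of 24 stands.
FALL-BACK if SPEC loses uniqueness: `gauss_top` (PROVED here) = the cut which follows the paper: BRIDGE then has to accept `AtFlatU t v δ 𝒰`.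

0 sorry: UNIT GAUSS HAS NO OPEN CONTRACT OF ITS OWN (21:32Z).  `gauss_mix` (the field `mix` of the plane package) is FILLED (72 + 292).  `gauss_dec` is FILLED (72) from `gauss_pl` + `exit_spec` + `gauss_sm`.  `gauss_bd` is FILLED from `exit_rsw_arm` + `exit_rsw_mom_smear` (172, 162, 281).  `gauss_harm` is FILLED from `at_screen` (162), `gauss_sm` from `exit_rsw_mom_smear` (182).
-/

set_option autoImplicit false

namespace Claimed.Agent.R292

open MeasureTheory Filter Topology Set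
open scoped ContDiff
open Claims Claims.C0468 Claimed.Agent.R291

/-- (A0)+(A1).  TEX[prop:log-moments] + TEX[lem:flat-tightness].  FILLED: `gsm182_gauss_sm` (182) from `exit_rsw_mom_smear` (RSW, 122). -/
theorem gauss_sm (t : ℝ) (ht1 : 1 / 2 ≤ t) (ht2 : t < 1) (D : Set (ℝ × ℝ)) (hD : GaussDom D) (δ : ℕ → ℝ) (F : ℕ → Finset (ℤ × ℤ))
    (hF : IsAdmissibleApprox D δ F) : GaussSM t D δ F :=
  gsm182_gauss_sm t ht1 ht2 D hD δ F hF

/-- (A2loc).  TEX[prop:screened-orthogonality] read on the moment kernels (06-gaussian.tex l.426-470).  FILLED: `gh162_harm` (162) from `at_screen` (SCREEN, 229) and `gauss_sm`. -/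
theorem gauss_harm (t : ℝ) (ht1 : 1 / 2 ≤ t) (ht2 : t < 1) (D : Set (ℝ × ℝ)) (hD : GaussDom D) (δ : ℕ → ℝ) (F : ℕ → Finset (ℤ × ℤ))
    (hF : IsAdmissibleApprox D δ F) : GaussHarm t D δ F :=
  gh162_harm (by linarith) (at_screen t ht1 ht2) hD hF (gauss_sm t ht1 ht2 D hD δ F hF)

/-- (A3).  TEX[prop:boundary-decay].  FILLED: `gbd172_bd` (172: Hoelder + compactness) on `gf162_flip` (162: cluster flip), `gdp172_depth_exit` (172: depth moment), `gauss_arch` (281, from `exit_rsw_arm`). -/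
theorem gauss_bd (t : ℝ) (ht1 : 1 / 2 ≤ t) (ht2 : t < 1) (D : Set (ℝ × ℝ)) (hD : GaussDom D) (δ : ℕ → ℝ) (F : ℕ → Finset (ℤ × ℤ))
    (hF : IsAdmissibleApprox D δ F) : GaussBD t D δ F :=
  gbd172_bd (by linarith) ht2.le hD hF (gauss_arch t ht1 ht2 D hD δ F hF) (fun n => gf162_flip (at92h_ext_of_approx hF n) t)
    (gdp172_depth_exit t ht1 ht2 hD hF) (gauss_sm t ht1 ht2 D hD δ F hF)

/-- S0 in the shape of Defs/GaussMatch = `exit_mdl_cmp` (MODEL, 291), colour plus. -/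
theorem gauss_fkg (t : ℝ) (ht1 : 1 / 2 ≤ t) (ht2 : t < 1) : GaussFkg t :=
  fun F hF b K hK X Y hX hY => exit_mdl_cmp t ht1 ht2 F hF b true K hK X Y hX hY

/-- [RATE] FILLED: `rt72_rate` (72, Rsw/Rate72: inner cluster + exact cut + FKG; no coupling, no factor `card A`). -/
theorem gauss_rate (t : ℝ) (ht1 : 1 / 2 ≤ t) (ht2 : t < 1) : GaussRate t :=
  rt72_rate (by linarith) ht2 (gauss_fkg t ht1 ht2)

/-- the bulk arm bound FILLED: `arm101_arm` (101) on `mdl1_circ_cond` (1), trivial exterior data. -/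
theorem gauss_arm (t : ℝ) (ht1 : 1 / 2 ≤ t) (ht2 : t < 1) : GaussArm t := by
  have ht0 : 0 < t := by linarith
  obtain ⟨p, hp, n0, H⟩ := mdl1_circ_cond t ht1 ht2
  obtain ⟨C, α, hC, hα, h⟩ := arm101_arm (t := t) (p := p) (n0 := n0) ht0.le ht2.le hp
    (fun n hn F z b a L hJ hs hL => H n hn F z b a L hJ hs hL)
  refine ⟨C, α, hC, hα, fun F z b a r R hR hF hB => ?_⟩
  have h1 := h F z b a (fun _ => True) r R hR hF hB (fun _ _ _ _ => Iff.rfl)
  have e1 : rswP t F b (fun _ => True) = 1 := by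
    unfold rswP rswE
    simp only [if_true]
    exact div_self (rsk_sum_one_pos ht0 ht2.le F b).ne'
  rw [e1, mul_one] at h1
  simpa only [true_and] using h1

/-- [MIX-R] TEX[lem:neutral-pair-mixing] in the vocabulary of RSW.      FILLED: `rt72_mix` (72, Rsw/Rate72 part 2: exterior search to a plus cut, [RATE] with `u = rskInd U true`, arm bound twice, `ρ = √(r L)`). -/
theorem gauss_mixR (t : ℝ) (ht1 : 1 / 2 ≤ t) (ht2 : t < 1) : GaussMixR t :=
  rt72_mix (by linarith) ht2 (gauss_rate t ht1 ht2) (gauss_arm t ht1 ht2)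

/-- (A4-mix).  TEX[lem:neutral-pair-mixing], eq:local-coupling-error = the field `mix` of the plane package `Gd72Pl t` of 72.      FILLED: `at92m_mix` (292, Gauss/Pl292 part 2: dictionary heights / configurations).
CHAIN (Defs/GaussMatch): `gauss_fkg` (= `exit_mdl_cmp`) ⟹ `gauss_rate` (72) ;  `gauss_rate` + `gauss_arm` ⟹ `gauss_mixR` (72) ;  `gauss_mixR` + `exit_rsw_plane` ⟹ this (292). -/
theorem gauss_mix (t : ℝ) (ht1 : 1 / 2 ≤ t) (ht2 : t < 1) :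
    ∃ C κ : ℝ, 0 < C ∧ 0 < κ ∧ ∀ (F : Finset (ℤ × ℤ)) (u0 : ℤ × ℤ) (r L : ℕ), Gd72Jor F → 1 ≤ r → C * r ≤ L → gd72FB u0 L ⊆ F →
      ∀ G Ψ : (ℤ × ℤ → ℝ) → ℝ, Gd72Ext (gd72VB u0 L) G → (∀ h, |G h| ≤ 1) → Gd72Loc (gd72VB u0 r) Ψ → Gd72Grad Ψ → (∀ h, |Ψ h| ≤ 1) →
        |gd72E t F (fun h => G h * Ψ h) - gd72E t F G * gd72Pl t Ψ| ≤ C * ((r : ℝ) / L) ^ κ :=
  at92m_mix (gauss_mixR t ht1 ht2) (exit_rsw_plane t ht1 ht2)

/-- THE PLANE PACKAGE of 72: `lim`, `tr`, `mom` FILLED (292, Gauss/Pl292) from `exit_rsw_plane`, `exit_rsw_mom_plane`; `mix` = `gauss_mix`. -/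
theorem gauss_pl (t : ℝ) (ht1 : 1 / 2 ≤ t) (ht2 : t < 1) : Gd72Pl t where
  lim := fun S G hl hg => (at92p_pl_all (exit_rsw_plane t ht1 ht2) S G hl hg).1
  tr := fun S G hl hg w => at92p_pl_tr (exit_rsw_plane t ht1 ht2) S G hl hg w
  mix := gauss_mix t ht1 ht2
  mom := fun m => at92p_pl_mom (exit_rsw_plane t ht1 ht2) (exit_rsw_mom_plane t ht1 ht2) m

/-- (A4).  TEX[prop:plane-green] + TEX[lem:neutral-pair-mixing] + TEX[prop:collision-coefficient].  ONE constant for all meshes, ultrafilters and domains.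
FILLED: `gd72_dec` (72, Gauss/Dec72 = port of R291/Lim/DecA + DecB) from the plane package `gauss_pl`, `exit_spec` (SPEC, 79) at the variogram of the plane law (`asi_in`, `gv72_aspin`), `gauss_sm`. -/
theorem gauss_dec (t : ℝ) (ht1 : 1 / 2 ≤ t) (ht2 : t < 1) :
    ∃ v : ℝ, 0 < v ∧ ∀ (δ : ℕ → ℝ) (𝒰 : Ultrafilter ℕ), (𝒰 : Filter ℕ) ≤ atTop →
      ∀ (D : Set (ℝ × ℝ)), GaussDom D → ∀ F : ℕ → Finset (ℤ × ℤ), IsAdmissibleApprox D δ F → GaussDec t v D δ F 𝒰 := by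
  have ht0 : 0 < t := by linarith
  have hc1 : 1 < t⁻¹ := (one_lt_inv₀ ht0).2 ht2
  have hc2 : t⁻¹ ≤ 2 := by
    rw [inv_le_comm₀ ht0 (by norm_num)]
    linarith
  obtain ⟨v, hv, h, _⟩ := exit_spec (gv72_aspin ht0.ne' (asi_in t⁻¹ hc1 hc2))
  exact gd72_dec ht0 (gauss_pl t ht1 ht2) ⟨v, hv, h⟩ (fun D hD δ F hF => gauss_sm t ht1 ht2 D hD δ F hF)

/-- THE GLUE (GAUSS; no probability): the four discrete inputs give the Wick moments along `𝒰`.
Route: `LmOk` from `GaussSM.fix`; `WkData D v (gaussT t δ F 𝒰)` as in R291/Lim/Bind (`lmb_data`); `wk_main`; recursion of `tmmWick`; odd moments by the recursion from `T {f} = 0`. -/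
theorem gauss_glue {t v : ℝ} (ht : 0 < t) {D : Set (ℝ × ℝ)} (hD : GaussDom D) {δ : ℕ → ℝ} {F : ℕ → Finset (ℤ × ℤ)}
    (hF : IsAdmissibleApprox D δ F) (𝒰 : Ultrafilter ℕ) (hU : (𝒰 : Filter ℕ) ≤ atTop)
    (hSM : GaussSM t D δ F) (hH : GaussHarm t D δ F) (hBD : GaussBD t D δ F) (hDec : GaussDec t v D δ F 𝒰)
    (φ : ℝ × ℝ → ℝ) (hφ : ContDiff ℝ ((⊤ : ℕ∞) : WithTop ℕ∞) φ) (hφc : HasCompactSupport φ) (hφD : tsupport φ ⊆ D)
    (u : ℝ × ℝ → ℝ) (hu2 : ContDiffOn ℝ 2 u D) (huc : ContinuousOn u (closure D))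
    (hu0 : ∀ z ∈ frontier D, u z = 0) (hueq : ∀ z ∈ D, -C0468.lap2 u z = φ z) (k : ℕ) :
    Tendsto (fun n => atExpect t (δ n) (F n) φ (fun s => s ^ k)) (𝒰 : Filter ℕ) (𝓝 (tmmWick (v * ∫ z in D, φ z * u z) k)) :=
  gauss172_glue ht hD hF 𝒰 hU hSM hH hBD hDec φ hφ hφc hφD u hu2 huc hu0 hueq k

/-- TEX[prop:gaussian-moments] for every Jordan domain, along any ultrafilter of meshes. -/
theorem gauss_flatU (t : ℝ) (ht1 : 1 / 2 ≤ t) (ht2 : t < 1) :
    ∃ v : ℝ, 0 < v ∧ ∀ (δ : ℕ → ℝ) (𝒰 : Ultrafilter ℕ), (𝒰 : Filter ℕ) ≤ atTop → AtFlatU t v δ 𝒰 := by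
  obtain ⟨v, hv, H⟩ := gauss_dec t ht1 ht2
  refine ⟨v, hv, fun δ 𝒰 hU D hD F hF φ hφ hφc hφD u hu2 huc hu0 hueq k => ?_⟩
  exact gauss_glue (by linarith) hD hF 𝒰 hU (gauss_sm t ht1 ht2 D hD δ F hF) (gauss_harm t ht1 ht2 D hD δ F hF)
    (gauss_bd t ht1 ht2 D hD δ F hF) (H δ 𝒰 hU D hD F hF) φ hφ hφc hφD u hu2 huc hu0 hueq k

/-- **THE OUTPUT OF GAUSS** = the contract `at_flat` of the top cut. -/
theorem gauss_flat (t : ℝ) (ht1 : 1 / 2 ≤ t) (ht2 : t < 1) : ∃ v : ℝ, 0 < v ∧ AtFlatGFF t v := by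
  obtain ⟨v, hv, H⟩ := gauss_flatU t ht1 ht2
  refine ⟨v, hv, fun D hDo hDb hDj δ F hF φ hφ hφc hφD u hu2 huc hu0 hueq k => ?_⟩
  rw [tendsto_iff_ultrafilter]
  intro 𝒰 hU
  exact H δ 𝒰 hU D ⟨hDo, hDb, hDj⟩ F hF φ hφ hφc hφD u hu2 huc hu0 hueq k

/-- FALL-BACK (the cut which follows the paper): a subsequential flat limit for every ultrafilter + identification of every subsequential constant (BRIDGE + BETHE) give the full limit. -/
theorem gauss_top (t v₀ : ℝ)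
    (hsub : ∀ (δ : ℕ → ℝ) (𝒰 : Ultrafilter ℕ), (∀ n, 0 < δ n) → Tendsto δ atTop (𝓝 0) → (𝒰 : Filter ℕ) ≤ atTop → ∃ v : ℝ, 0 < v ∧ AtFlatU t v δ 𝒰)
    (hid : ∀ (δ : ℕ → ℝ) (𝒰 : Ultrafilter ℕ) (v : ℝ), (∀ n, 0 < δ n) → Tendsto δ atTop (𝓝 0) → (𝒰 : Filter ℕ) ≤ atTop → 0 < v →
      AtFlatU t v δ 𝒰 → v = v₀) : AtFlatGFF t v₀ := by
  intro D hDo hDb hDj δ F hF φ hφ hφc hφD u hu2 huc hu0 hueq k
  rw [tendsto_iff_ultrafilter]
  intro 𝒰 hU
  obtain ⟨v, hv, H⟩ := hsub δ 𝒰 hF.1 hF.2.1 hU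
  have e := hid δ 𝒰 v hF.1 hF.2.1 hU hv H
  subst e
  exact H D ⟨hDo, hDb, hDj⟩ F hF φ hφ hφc hφD u hu2 huc hu0 hueq k

end Claimed.Agent.R292
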