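import Claimed.Agent.R292.Defs.Top
import Claimed.Agent.R292.Exit.GAUSS

/-!
# Row 292, Exit/Flat : CONTRACT `at_flat`      (typed by helper24; OWNER = unit GAUSS, head helper181)

AT paper, Theorem 6.1 (flat-domain limit) in moment form, BEFORE the normalisation: one constant `v = v(t) > 0` for all Jordan domains.
FILLED (181): `gauss_flat` of Exit/GAUSS (4 contracts below it: `gauss_sm`, `gauss_harm`, `gauss_bd`, `gauss_dec`).
-/

set_option autoImplicit false

namespace Claimed.Agent.R292

theorem at_flat (t : ℝ) (ht1 : 1 / 2 ≤ t) (ht2 : t < 1) : ∃ v : ℝ, 0 < v ∧ AtFlatGFF t v :=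
  gauss_flat t ht1 ht2

end Claimed.Agent.R292
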