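import Claimed.Agent.R292.Defs.JORDAN
import Claimed.Agent.R292.Geo.Sq179
import Claimed.Agent.R291.Wick.Diag
import Claimed.Agent.R291.Top.Mom

/-!
# Row 292 (S0540), Exit/JORDAN : THE OUTPUTS OF THE UNIT JORDAN      (head helper281; prefix `jd_`)

**NO GREEN FUNCTION IS NEEDED.**  The frozen variance is `∫_D φ u` with `u` GIVEN by the hypotheses of S0540.  The abstract Wick identity `wk_main` of R291 (Wick/Diag, on main, 0 sorry) holds
in EVERY bounded open `D` (no regularity of the boundary): a multilinear moment functional `T` with the contract `R291.WkData D v T` (multilinear, Hoelder, log moments, weakly harmonic off the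
spectators, zero boundary trace, local collision constant `v`) satisfies `T (f^(j+2)) = (j+1) v (∫_D f u) T (f^j)`.   `Claims.C0468.lap2` and `Claims.C0467.lap2` are the same term.
* `exit_jordan_wick`, `exit_jordan_moments`  PROVED here (import of R291).       Consumer: GAUSS / TOP (produce `WkData D v T` for `T` = limit of the mixed moments along an ultrafilter).

ALL PROVED (0 sorry): J2-J5 are citations of R292/Geo/Sq179.lean (helper179; twins on main: Jordan/Poly99, Jordan/Fill199, Geo/SqGeo19).
The rest of the unit = what the probabilistic units need from `IsAdmissibleApprox D δ F` in LATTICE words (Defs/JORDAN):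
* `exit_jordan_poly`     every `F n` is a simply connected polyomino `JdPoly` (the frontier of the face region is a SIMPLE closed curve)        consumers: TOP (height exists, unique), MODEL, RSW
* `exit_jordan_inside`   faces which meet a compact subset of `D` are eventually in `F n`                                                  consumers: GAUSS (A0)-(A2), (A4)
* `exit_jordan_reach`    uniformly in `z`: a face OUTSIDE `F n` within `jdDep D z + ε` of `z`                                               consumers: boundary decay (A3)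
* `exit_jordan_bounded`  all the regions lie in one bounded box                                                                           consumers: log moments
-/

set_option autoImplicit false

namespace Claimed.Agent.R292

open MeasureTheory Filter Topology Set
open Claims Claims.C0468

theorem jd_lap2_eq : Claims.C0468.lap2 = Claims.C0467.lap2 := rfl

/-- **J1 (proved).**  The abstract Wick identity in an arbitrary bounded open set, in the words of Def_0468. -/
theorem exit_jordan_wick {D : Set (ℝ × ℝ)} {v : ℝ} {T : Multiset (ℝ × ℝ → ℝ) → ℝ} (W : R291.WkData D v T)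
    (hD : IsOpen D) (hb : Bornology.IsBounded D) {f u : ℝ × ℝ → ℝ}
    (hf : Continuous f) (hfc : HasCompactSupport f) (hfD : tsupport f ⊆ D)
    (hu : ContDiffOn ℝ 2 u D) (huc : ContinuousOn u (closure D)) (hu0 : ∀ z ∈ frontier D, u z = 0)
    (hlap : ∀ z ∈ D, -lap2 u z = f z) (j : ℕ) :
    T (Multiset.replicate (j + 2) f) = ((j : ℝ) + 1) * v * (∫ z in D, f z * u z) * T (Multiset.replicate j f) :=
  R291.wk_main W hD hb hf hfc hfD hu huc hu0 hlap j

/-- **J1' (proved).**  All the moments of the limit are the Wick numbers of the variance `v ∫_D f u`. -/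
theorem exit_jordan_moments {D : Set (ℝ × ℝ)} {v : ℝ} {T : Multiset (ℝ × ℝ → ℝ) → ℝ} (W : R291.WkData D v T)
    (hD : IsOpen D) (hb : Bornology.IsBounded D) {f u : ℝ × ℝ → ℝ}
    (hf : Continuous f) (hfc : HasCompactSupport f) (hfD : tsupport f ⊆ D)
    (hu : ContDiffOn ℝ 2 u D) (huc : ContinuousOn u (closure D)) (hu0 : ∀ z ∈ frontier D, u z = 0)
    (hlap : ∀ z ∈ D, -lap2 u z = f z) (h0 : T 0 = 1) (h1 : T {f} = 0) (k : ℕ) :
    T (Multiset.replicate k f) = R291.tmmWick (v * ∫ z in D, f z * u z) k := by
  induction k using Nat.twoStepInduction with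
  | zero => simpa [R291.tmm_wick_zero] using h0
  | one => simpa [R291.tmm_wick_one] using h1
  | more k ih _ =>
    rw [exit_jordan_wick W hD hb hf hfc hfD hu huc hu0 hlap k, ih, R291.tmm_wick_succ]
    ring

/-- **J2.**  Every `F n` of an admissible approximation is a simply connected polyomino. -/
theorem exit_jordan_poly {D : Set (ℝ × ℝ)} {δ : ℕ → ℝ} {F : ℕ → Finset (ℤ × ℤ)} (h : IsAdmissibleApprox D δ F) (n : ℕ) :
    JdPoly (F n) :=
  jd179_poly h n

/-- **J3.**  Faces which meet a compact subset of `D` are eventually faces of `F n`. -/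
theorem exit_jordan_inside {D : Set (ℝ × ℝ)} {δ : ℕ → ℝ} {F : ℕ → Finset (ℤ × ℤ)} (h : IsAdmissibleApprox D δ F)
    {K : Set (ℝ × ℝ)} (hK : IsCompact K) (hKD : K ⊆ D) :
    ∀ᶠ n in atTop, ∀ f : ℤ × ℤ, (jdSq (δ n) f ∩ K).Nonempty → f ∈ F n :=
  jd179_inside h hK hKD

/-- **J4.**  Uniformly in the point `z`: eventually there is a face outside `F n` which meets the sup-ball of radius `jdDep D z + ε` about `z`. -/
theorem exit_jordan_reach {D : Set (ℝ × ℝ)} {δ : ℕ → ℝ} {F : ℕ → Finset (ℤ × ℤ)} (h : IsAdmissibleApprox D δ F)
    {ε : ℝ} (hε : 0 < ε) :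
    ∀ᶠ n in atTop, ∀ z : ℝ × ℝ, ∃ g : ℤ × ℤ, g ∉ F n ∧ (jdSq (δ n) g ∩ Metric.closedBall z (jdDep D z + ε)).Nonempty :=
  jd179_reach h hε

/-- **J5.**  All the face regions lie in one bounded box. -/
theorem exit_jordan_bounded {D : Set (ℝ × ℝ)} (hb : Bornology.IsBounded D) {δ : ℕ → ℝ} {F : ℕ → Finset (ℤ × ℤ)}
    (h : IsAdmissibleApprox D δ F) :
    ∃ R : ℝ, 0 < R ∧ ∀ n, ∀ f ∈ F n, jdSq (δ n) f ⊆ Metric.closedBall (0 : ℝ × ℝ) R :=
  jd179_bounded hb h

end Claimed.Agent.R292
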