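import Claimed.Agent.R292.Defs.Top
import Claimed.Agent.R292.Api

/-!
# Row 292, Exit/Tmm : CONTRACTS `at_range`, `at_tmm`      (typed by helper24; OWNER = unit TOP, head helper249)

BOTH CLOSED (249, 18:40Z), 0 sorry: citations of `R292/Api.lean` of helper292 (`at92_inv_le_two`, `at92_T_lt_one`, `at92_top`).
-/

set_option autoImplicit false

namespace Claimed.Agent.R292

open MeasureTheory ProbabilityTheory Filter Topology BoundedContinuousFunction
open Claims Claims.C0468 Claimed.Agent.R291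

/-- the critical line `sinh 2J = e^{-2U}`, `U ≤ J` is `c = 1 / atT U ∈ (1,2]`. -/
theorem at_range (J U : ℝ) (hJ : 0 < J) (hUJ : U ≤ J) (hcrit : Real.sinh (2 * J) = Real.exp (-2 * U)) :
    1 / 2 ≤ atT U ∧ atT U < 1 := by
  have h0 := at92_T_pos U
  refine ⟨?_, at92_T_lt_one U⟩
  have h := at92_inv_le_two hUJ hcrit
  rw [inv_le_comm₀ h0 (by norm_num)] at h
  linarith

/-- method of moments for the frozen expectation. -/
theorem at_tmm {t : ℝ} (ht : 0 < t) (δ : ℕ → ℝ) (F : ℕ → Finset (ℤ × ℤ)) (φ : ℝ × ℝ → ℝ) (v : ℝ)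
    (hmom : ∀ k : ℕ, Tendsto (fun n => atExpect t (δ n) (F n) φ fun s => s ^ k) atTop (𝓝 (tmmWick v k)))
    (ψ : ℝ →ᵇ ℝ) :
    Tendsto (fun n => atExpect t (δ n) (F n) φ ψ) atTop (𝓝 (∫ s, ψ s ∂gaussianReal 0 v.toNNReal)) :=
  at92_top ht δ F φ v hmom ψ

end Claimed.Agent.R292
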