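import Mathlib
import Claimed.Agent.R292.Api
import Claimed.Agent.R292.Height

/-!
# Row 292 (S0540), Exit/Top : THE OUTPUTS OF THE UNIT "TOP"      (head helper249; prefix `at249_`, defs `at249*`)

**0 sorry (18:50Z): THE UNIT TOP IS CLOSED.**  The two leaves are citations of `R292/Height.lean` of helper292.
What the other units of row 292 may cite about the frozen Def_0468 (through `R292/Api.lean` + `R292/Height.lean` of 292):
* `at249_height_unique`   (U)  two solutions of `IsATHeight` agree on `cornersOf F` and on `F`, EVERY finite `F`      [= `at92h_unique`]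
* `at249_height_exists`   (E)(B)(C)  a solution exists for every admissible pair when the frontier of the region
                          is preconnected                                                           [= `at92h_exists` + `at92h_ext_conn`]
* `at249_height_spec`, `at249_height_eq`   the frozen `atHeight` IS the solution
* from `Height.lean`: `at92h_expect_neg` (the law is symmetric), `at92h_odd_moment`, `at92h_odd_tendsto` (odd half of every moment contract)
* `at249_approx`          what `IsAdmissibleApprox` gives at each `n` (0 sorry)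
* `at249Corr`, `at249_moment`   k-th moment of the smeared height = `δ^(2k) Σ_v Π φ(δ v_i) · E[Π h(v_i)]` (0 sorry)
* **`at249_frozen_of_moments`**  the frozen conclusion of S0540 from the convergence of all moments (0 sorry)
-/

set_option autoImplicit false

namespace Claimed.Agent.R292

open MeasureTheory ProbabilityTheory Filter Topology BoundedContinuousFunction Set
open scoped NNReal ENNReal
open Claims Claims.C0468
open Claimed.Agent.R291

/-- (U) uniqueness of the height, every finite `F`. -/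
theorem at249_height_unique {F : Finset (ℤ × ℤ)} {τ : cornersOf F → Bool} {τd : F → Bool}
    {Hv Hf Hv' Hf' : ℤ × ℤ → ℝ} (h : IsATHeight τ τd Hv Hf) (h' : IsATHeight τ τd Hv' Hf') :
    (∀ v ∈ cornersOf F, Hv v = Hv' v) ∧ ∀ f ∈ F, Hf f = Hf' f :=
  at92h_unique h h'

/-- (E)(B)(C) existence of the height of an admissible pair. -/
theorem at249_height_exists {d : ℝ} (hd : 0 < d) {F : Finset (ℤ × ℤ)}
    (hc : IsPreconnected (frontier (faceRegionSq d F)))
    {τ : cornersOf F → Bool} {τd : F → Bool} (hadm : IsAdmissibleSpins τ τd) :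
    ∃ Hv Hf : ℤ × ℤ → ℝ, IsATHeight τ τd Hv Hf :=
  at92h_exists (fun S hS hne hcl => at92h_ext_conn hd F hc S hS hne hcl) hadm

/-- what the frozen approximation gives at each `n` -/
theorem at249_approx {D : Set (ℝ × ℝ)} {δ : ℕ → ℝ} {F : ℕ → Finset (ℤ × ℤ)} (happ : IsAdmissibleApprox D δ F)
    (n : ℕ) : 0 < δ n ∧ IsPreconnected (frontier (faceRegionSq (δ n) (F n))) := by
  obtain ⟨h0, -, -, γ, γs, -, -, -, hs, -⟩ := happ
  refine ⟨h0 n, ?_⟩
  rw [← (hs n).2.2]
  exact isPreconnected_range (hs n).1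

/-- the frozen `atHeight` solves the height equations as soon as they have a solution -/
theorem at249_height_spec_of {F : Finset (ℤ × ℤ)} {τ : cornersOf F → Bool} {τd : F → Bool}
    (h : ∃ Hv Hf : ℤ × ℤ → ℝ, IsATHeight τ τd Hv Hf) : ∃ Hf, IsATHeight τ τd (atHeight τ τd) Hf := by
  classical
  unfold atHeight
  rw [dif_pos h]
  exact Classical.choose_spec h

theorem at249_height_spec {d : ℝ} (hd : 0 < d) {F : Finset (ℤ × ℤ)}
    (hc : IsPreconnected (frontier (faceRegionSq d F)))
    {τ : cornersOf F → Bool} {τd : F → Bool} (hadm : IsAdmissibleSpins τ τd) :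
    ∃ Hf, IsATHeight τ τd (atHeight τ τd) Hf :=
  at249_height_spec_of (at249_height_exists hd hc hadm)

/-- the frozen `atHeight` equals ANY solution on the corners -/
theorem at249_height_eq {F : Finset (ℤ × ℤ)} {τ : cornersOf F → Bool} {τd : F → Bool}
    {Hv Hf : ℤ × ℤ → ℝ} (h : IsATHeight τ τd Hv Hf) : ∀ v ∈ cornersOf F, atHeight τ τd v = Hv v := by
  obtain ⟨Hf', h'⟩ := at249_height_spec_of ⟨Hv, Hf, h⟩
  exact (at249_height_unique h' h).1

/-- the `k`-point function of the height -/
noncomputable def at249Corr (t : ℝ) (F : Finset (ℤ × ℤ)) {k : ℕ} (v : Fin k → ℤ × ℤ) : ℝ :=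
  (∑ p ∈ at92Adm F, at92W t p * ∏ i, atHeight p.1 p.2 (v i)) / ∑ p ∈ at92Adm F, at92W t p

/-- the `k`-th moment of the smeared height is the Riemann sum of the `k`-point function -/
theorem at249_moment (t δ : ℝ) (F : Finset (ℤ × ℤ)) (φ : ℝ × ℝ → ℝ) (k : ℕ) :
    atExpect t δ F φ (fun s => s ^ k) =
      δ ^ (2 * k) * ∑ v ∈ Fintype.piFinset (fun _ : Fin k => cornersOf F),
        (∏ i, φ (δ * (v i).1, δ * (v i).2)) * at249Corr t F v := by
  rw [at92_expect_eq]
  unfold at249Corr at92X
  have key : ∀ p : at92Cfg F, (δ ^ 2 * ∑ v ∈ cornersOf F, atHeight p.1 p.2 v * φ (δ * v.1, δ * v.2)) ^ k =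
      δ ^ (2 * k) * ∑ v ∈ Fintype.piFinset (fun _ : Fin k => cornersOf F),
        (∏ i, φ (δ * (v i).1, δ * (v i).2)) * ∏ i, atHeight p.1 p.2 (v i) := by
    intro p
    rw [mul_pow, ← pow_mul]
    congr 1
    have e : (∑ v ∈ cornersOf F, atHeight p.1 p.2 v * φ (δ * v.1, δ * v.2)) ^ k =
        ∏ _i : Fin k, ∑ v ∈ cornersOf F, atHeight p.1 p.2 v * φ (δ * v.1, δ * v.2) := by
      rw [Fin.prod_const]
    rw [e, Finset.prod_univ_sum]
    refine Finset.sum_congr rfl fun v _ => ?_
    rw [Finset.prod_mul_distrib, mul_comm]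
  simp only [key]
  set Z := ∑ p ∈ at92Adm F, at92W t p with hZ
  have e1 : ∀ v : Fin k → ℤ × ℤ, (∏ i, φ (δ * (v i).1, δ * (v i).2)) *
      ((∑ p ∈ at92Adm F, at92W t p * ∏ i, atHeight p.1 p.2 (v i)) / Z) =
      (∑ p ∈ at92Adm F, at92W t p * ((∏ i, φ (δ * (v i).1, δ * (v i).2)) * ∏ i, atHeight p.1 p.2 (v i))) / Z := by
    intro v
    rw [← mul_div_assoc, Finset.mul_sum]
    congr 1
    refine Finset.sum_congr rfl fun p _ => ?_
    ring
  simp only [e1]
  rw [← Finset.sum_div, ← mul_div_assoc, Finset.sum_comm, Finset.mul_sum]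
  congr 1
  refine Finset.sum_congr rfl fun p _ => ?_
  rw [Finset.mul_sum, Finset.mul_sum, Finset.mul_sum]
  refine Finset.sum_congr rfl fun v _ => ?_
  ring

/-- **the frozen conclusion of S0540 from the moments** -/
theorem at249_frozen_of_moments (U : ℝ) (D : Set (ℝ × ℝ)) (δ : ℕ → ℝ) (F : ℕ → Finset (ℤ × ℤ))
    (φ u : ℝ × ℝ → ℝ)
    (hmom : ∀ k : ℕ, Tendsto (fun n => atExpect (atT U) (δ n) (F n) φ fun s => s ^ k) atTop
      (𝓝 (tmmWick (2 * Real.pi * (∫ z in D, φ z * u z) / (Real.pi ^ 2 * atG U)) k)))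
    (ψ : ℝ →ᵇ ℝ) :
    Tendsto (fun n => atExpect (atT U) (δ n) (F n) φ ψ) atTop
      (𝓝 (∫ s, ψ s ∂gaussianReal 0
        (2 * Real.pi * (∫ z in D, φ z * u z) / (Real.pi ^ 2 * atG U)).toNNReal)) :=
  at92_top (at92_T_pos U) δ F φ _ hmom ψ

end Claimed.Agent.R292
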